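import Vale.Agent.P042PZ.Fin

set_option autoImplicit false

/-!
P042: power saving for differences `h(n)` and for differences `h(p)`, `p` prime, with an exponent
which depends only on the degree.
-/

namespace Vale.Agent.Results.P042.AAPrimes

open Polynomial

/-- For every degree `k ≥ 2` there is `c > 0` such that (1) `r_h(N) ≤ C N ^ (1 - c)` for every
intersective `h` of degree `k` with positive leading coefficient, and (2) the same bound holds for
the sets without a nonzero difference `h(p)`, `p` prime, if `h` has a root coprime to `q` modulo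
every `q`. -/
theorem result : ∀ k : ℕ, 2 ≤ k → ∃ c : ℝ, 0 < c ∧
    (∀ h : ℤ[X], h.natDegree = k → 0 < h.leadingCoeff → Vale.Agent.P042.Intersective h →
      ∃ C : ℝ, 0 < C ∧ ∀ N : ℕ, 1 ≤ N →
        (Vale.Agent.P042.rMax h N : ℝ) ≤ C * (N : ℝ) ^ (1 - c)) ∧
    (∀ h : ℤ[X], h.natDegree = k → 0 < h.leadingCoeff → Vale.Agent.P042P.PrimeIntersective h →
      ∃ C : ℝ, 0 < C ∧ ∀ N : ℕ, 1 ≤ N →
        (Vale.Agent.P042P.rMaxPrime h N : ℝ) ≤ C * (N : ℝ) ^ (1 - c)) :=
  Vale.Agent.P042P.both

end Vale.Agent.Results.P042.AAPrimes
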